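import Vale.Agent.Lib.P190.Elem

/-!
# P190: choice of `w`, and the key condition
-/

namespace Vale.Agent.P190

open IsLocalRing RingTheory.Sequence

universe u

section

variable {A : Type u} [CommRing A] [IsDomain A]
  {R : Type u} [CommRing R] [Algebra A R] {F : Type u} [AddCommGroup F] [Module A F]
  (π : F →ₗ[A] R)

theorem mkQ_eq_zero_iff (x : FractionRing A) : (QA A).mkQ x = 0 ↔ x ∈ QA A := by
  rw [Submodule.mkQ_apply, Submodule.Quotient.mk_eq_zero]

/-- symmetric bilinear lift of `(e, e') ↦ w (π e * π e')`. -/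
theorem exists_B [Module.Free A F] (w : R →ₗ[A] (FractionRing A ⧸ QA A)) :
    ∃ B : F →ₗ[A] F →ₗ[A] FractionRing A,
      (∀ e e', (QA A).mkQ (B e e') = w (π e * π e')) ∧ ∀ e e', B e e' = B e' e := by
  have b := Module.Free.chooseBasis A F
  let σ := Function.surjInv (QA A).mkQ_surjective
  have hσ : ∀ t, (QA A).mkQ (σ t) = t := Function.surjInv_eq (QA A).mkQ_surjective
  let B : F →ₗ[A] F →ₗ[A] FractionRing A :=
    b.constr A (fun i => b.constr A (fun j => σ (w (π (b i) * π (b j)))))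
  have hB : ∀ i j, B (b i) (b j) = σ (w (π (b i) * π (b j))) := by
    intro i j
    simp only [B, Module.Basis.constr_basis]
  refine ⟨B, ?_, ?_⟩
  · have h1 : B.compr₂ (QA A).mkQ = ((LinearMap.mul A R).compl₁₂ π π).compr₂ w := by
      refine b.ext fun i => b.ext fun j => ?_
      change (QA A).mkQ (B (b i) (b j)) = w (π (b i) * π (b j))
      rw [hB, hσ]
    intro e e'
    exact LinearMap.congr_fun₂ h1 e e'
  · have h1 : B = B.flip := by
      refine b.ext fun i => b.ext fun j => ?_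
      rw [LinearMap.flip_apply, hB, hB, mul_comm]
    intro e e'
    exact LinearMap.congr_fun₂ h1 e e'

/-- `β`. -/
theorem exists_beta (w : R →ₗ[A] (FractionRing A ⧸ QA A)) (B : F →ₗ[A] F →ₗ[A] FractionRing A)
    (hB : ∀ e e', (QA A).mkQ (B e e') = w (π e * π e')) :
    ∃ β : LinearMap.ker π →ₗ[A] Module.Dual A F,
      ∀ (g : LinearMap.ker π) (e : F), algebraMap A (FractionRing A) (β g e) = B g e := by
  have hmem : ∀ (g : LinearMap.ker π) (e : F), ∃ a : A,
      algebraMap A (FractionRing A) a = B g e := by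
    intro g e
    rw [← mem_QA, ← mkQ_eq_zero_iff, hB, LinearMap.mem_ker.1 g.2, zero_mul, map_zero]
  choose b hb using hmem
  refine ⟨LinearMap.mk₂ A b ?_ ?_ ?_ ?_, fun g e => hb g e⟩
  · intro g g' e
    apply algMap_inj
    rw [map_add, hb, hb, hb]
    change B ((g : F) + (g' : F)) e = _
    rw [map_add]
    rfl
  · intro a g e
    apply algMap_inj
    rw [smul_eq_mul, map_mul, hb, hb, ← Algebra.smul_def]
    change B (a • (g : F)) e = _
    rw [map_smul]
    rfl
  · intro g e e'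
    apply algMap_inj
    rw [map_add, hb, hb, hb, map_add]
  · intro a g e
    apply algMap_inj
    rw [smul_eq_mul, map_mul, hb, hb, ← Algebra.smul_def, map_smul]

/-- Main choice. -/
theorem exists_choice [IsLocalRing A] [Module.Free A F]
    [Module.Free A (LinearMap.ker π)] [Module.Finite A (LinearMap.ker π)]
    (hπ : Function.Surjective π) {ys : List A} {z : A}
    (hmax : Ideal.ofList (ys ++ [z]) = maximalIdeal A)
    (hF : IsWeaklyRegular F (ys ++ [z])) (hR : IsWeaklyRegular R ys)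
    (s₀ : R) (hs₀ : s₀ ∉ (Ideal.ofList ys • (⊤ : Submodule A R)))
    (hzs₀ : z • s₀ ∈ (Ideal.ofList ys • (⊤ : Submodule A R)))
    (hsoc : ∀ x : R, x ∉ (Ideal.ofList ys • (⊤ : Submodule A R)) →
      z • x ∈ (Ideal.ofList ys • (⊤ : Submodule A R)) →
      ∃ r' : R, r' * x - s₀ ∈ (Ideal.ofList ys • (⊤ : Submodule A R))) :
    ∃ (w : R →ₗ[A] (FractionRing A ⧸ QA A)) (B : F →ₗ[A] F →ₗ[A] FractionRing A)
      (β : LinearMap.ker π →ₗ[A] Module.Dual A F),
      (∀ e e', (QA A).mkQ (B e e') = w (π e * π e')) ∧ (∀ e e', B e e' = B e' e) ∧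
      (∀ (g : LinearMap.ker π) (e : F), algebraMap A (FractionRing A) (β g e) = B g e) ∧
      ∀ g : LinearMap.ker π, (g : F) ∈ (maximalIdeal A • (⊤ : Submodule A F)) →
        (∀ e, β g e ∈ maximalIdeal A) →
        g ∈ (maximalIdeal A • (⊤ : Submodule A (LinearMap.ker π))) := by
  -- the element `g₀`
  obtain ⟨us, hus⟩ := hπ s₀
  obtain ⟨t, ht, hπt⟩ := exists_preimage_smul (Ideal.ofList ys) π hπ hzs₀
  have hg₀ker : z • us - t ∈ LinearMap.ker π := by
    rw [LinearMap.mem_ker, map_sub, map_smul, hus, hπt, sub_self]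
  let g₀ : LinearMap.ker π := ⟨z • us - t, hg₀ker⟩
  have hg₀coe : (g₀ : F) = z • us - t := rfl
  have hg₀ : g₀ ∉ (maximalIdeal A • (⊤ : Submodule A (LinearMap.ker π))) := by
    intro h
    rw [mem_max_smul hmax] at h
    obtain ⟨g', hg'⟩ := h
    have h1 := coe_mem_smul _ π _ hg'
    have h2 : z • (us - (g' : F)) ∈ (Ideal.ofList ys • (⊤ : Submodule A F)) := by
      have h3 : z • (us - (g' : F)) = ((g₀ - z • g' : LinearMap.ker π) : F) + t := by
        change _ = ((z • us - t) - z • (g' : F)) + t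
        rw [smul_sub]
        abel
      rw [h3]
      exact Submodule.add_mem _ h1 ht
    have h4 := map_mem_smul (Ideal.ofList ys) π (mem_of_z_smul hF _ h2)
    rw [map_sub, LinearMap.mem_ker.1 g'.2, sub_zero, hus] at h4
    exact hs₀ h4
  obtain ⟨v, hv⟩ := exists_functional g₀ hg₀
  -- extend `v` to `ω`
  obtain ⟨ω, hω⟩ := (baer_fractionRing A).extension_property (LinearMap.ker π).subtype
    (Submodule.subtype_injective _) ((Algebra.linearMap A (FractionRing A)) ∘ₗ v)
  have hω' : ∀ g : LinearMap.ker π, ω g = algebraMap A (FractionRing A) (v g) :=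
    fun g => LinearMap.congr_fun hω g
  have hker : LinearMap.ker π ≤ LinearMap.ker ((QA A).mkQ ∘ₗ ω) := by
    intro g hg
    rw [LinearMap.mem_ker]
    change (QA A).mkQ (ω g) = 0
    rw [mkQ_eq_zero_iff]
    have := hω' ⟨g, hg⟩
    change ω g = _ at this
    rw [this]
    exact mem_QA.2 ⟨_, rfl⟩
  let w : R →ₗ[A] (FractionRing A ⧸ QA A) := fac π hπ ((QA A).mkQ ∘ₗ ω) hker
  have hw : ∀ e, w (π e) = (QA A).mkQ (ω e) := fun e => fac_apply π hπ _ hker e
  obtain ⟨B, hB, hsymm⟩ := exists_B π w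
  obtain ⟨β, hβ⟩ := exists_beta π w B hB
  refine ⟨w, B, β, hB, hsymm, hβ, ?_⟩
  intro g hgF hgβ
  by_contra hg
  obtain ⟨u, hu⟩ := (mem_max_smul hmax (g : F)).1 hgF
  have hx : π u ∉ (Ideal.ofList ys • (⊤ : Submodule A R)) :=
    fun h => hg (fact_c hmax π hπ hR g u hu h)
  have hzx : z • π u ∈ (Ideal.ofList ys • (⊤ : Submodule A R)) := by
    have h1 := map_mem_smul (Ideal.ofList ys) π hu
    rw [map_sub, LinearMap.mem_ker.1 g.2, zero_sub, map_smul] at h1
    exact (Submodule.neg_mem_iff _).1 h1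
  obtain ⟨r', hr'⟩ := hsoc (π u) hx hzx
  -- lift multiplication by `r'`
  obtain ⟨L, hL⟩ := Module.projective_lifting_property π ((LinearMap.mulLeft A r') ∘ₗ π) hπ
  have hL' : ∀ e, π (L e) = r' * π e := fun e => LinearMap.congr_fun hL e
  have hg₁ker : L g ∈ LinearMap.ker π := by
    rw [LinearMap.mem_ker, hL', LinearMap.mem_ker.1 g.2, mul_zero]
  let g₁ : LinearMap.ker π := ⟨L g, hg₁ker⟩
  have hh : g₁ - g₀ ∈ (maximalIdeal A • (⊤ : Submodule A (LinearMap.ker π))) := by
    refine fact_c hmax π hπ hR (g₁ - g₀) (L u - us) ?_ ?_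
    · have h1 : ((g₁ - g₀ : LinearMap.ker π) : F) - z • (L u - us)
          = L ((g : F) - z • u) + t := by
        change (L g - (z • us - t)) - z • (L u - us) = _
        rw [map_sub, map_smul, smul_sub]
        abel
      rw [h1]
      exact Submodule.add_mem _ (map_mem_smul _ L hu) ht
    · rw [map_sub, hL', hus]
      exact hr'
  have hvg₁ : v g₁ ∉ maximalIdeal A := by
    intro h
    apply hv
    have h1 := map_mem_smul (maximalIdeal A) v hh
    rw [smul_eq_mul, Ideal.mul_top, map_sub] at h1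
    have h2 : v g₀ = v g₁ - (v g₁ - v g₀) := by ring
    rw [h2]
    exact Ideal.sub_mem _ h h1
  -- the vector `e₁`
  obtain ⟨e₁, he₁⟩ := hπ 1
  obtain ⟨δ, hδ⟩ := exists_lift (B e₁ - ω) (by
    intro m
    rw [← mkQ_eq_zero_iff]
    change (QA A).mkQ (B e₁ m - ω m) = 0
    rw [map_sub, hB, he₁, one_mul, hw, sub_self])
  obtain ⟨D, hD⟩ := exists_lift (B (L e₁) - (B e₁) ∘ₗ L) (by
    intro m
    rw [← mkQ_eq_zero_iff]
    change (QA A).mkQ (B (L e₁) m - B e₁ (L m)) = 0
    rw [map_sub, hB, hB, hL', hL', he₁, mul_one, one_mul, sub_self])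
  have h1 : β g₁ e₁ = v g₁ + δ g₁ := by
    apply algMap_inj
    rw [map_add, hβ, hδ, ← hω']
    change B g₁ e₁ = ω g₁ + (B e₁ g₁ - ω g₁)
    rw [hsymm]
    ring
  have h2 : β g (L e₁) = β g₁ e₁ + D g := by
    apply algMap_inj
    rw [map_add, hβ, hβ, hD]
    change B g (L e₁) = B (L g) e₁ + (B (L e₁) g - B e₁ (L g))
    rw [hsymm g (L e₁), hsymm (L g) e₁]
    ring
  have h3 : D g ∈ maximalIdeal A := by
    have := map_mem_smul (maximalIdeal A) D hgF
    rwa [smul_eq_mul, Ideal.mul_top] at this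
  have h4 : δ g₁ ∈ maximalIdeal A := by
    have h5 := map_mem_smul (maximalIdeal A) L hgF
    have := map_mem_smul (maximalIdeal A) δ h5
    rwa [smul_eq_mul, Ideal.mul_top] at this
  apply hvg₁
  have h6 : v g₁ = β g (L e₁) - D g - δ g₁ := by
    rw [h2, h1]
    ring
  rw [h6]
  exact Ideal.sub_mem _ (Ideal.sub_mem _ (hgβ _) h3) h4

end

end Vale.Agent.P190
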