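import Vale.Agent.Lib.P190.Split

/-!
# P190: the module `N = {(r, φ) : φ ≡ r·w mod A}`
-/

namespace Vale.Agent.P190

open IsLocalRing

universe u

section

variable (A : Type u) [CommRing A] [IsDomain A]

/-- `A` as a submodule of its fraction field. -/
noncomputable abbrev QA : Submodule A (FractionRing A) :=
  LinearMap.range (Algebra.linearMap A (FractionRing A))

variable {A}

omit [IsDomain A] in
theorem mem_QA {x : FractionRing A} : x ∈ QA A ↔ ∃ a : A, algebraMap A (FractionRing A) a = x := by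
  rw [LinearMap.mem_range]
  rfl

omit [IsDomain A] in
theorem algMap_inj : Function.Injective (algebraMap A (FractionRing A)) :=
  IsFractionRing.injective A (FractionRing A)

variable {R : Type u} [CommRing R] [Algebra A R]

/-- a linear map vanishing on `ker π` factors through the surjection `π`. -/
noncomputable def fac {F Q : Type u} [AddCommGroup F] [Module A F] [AddCommGroup Q] [Module A Q]
    (π : F →ₗ[A] R) (hπ : Function.Surjective π) (ψ : F →ₗ[A] Q)
    (h : LinearMap.ker π ≤ LinearMap.ker ψ) : R →ₗ[A] Q :=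
  (LinearMap.ker π).liftQ ψ h ∘ₗ (π.quotKerEquivOfSurjective hπ).symm.toLinearMap

omit [IsDomain A] in
theorem fac_apply {F Q : Type u} [AddCommGroup F] [Module A F] [AddCommGroup Q] [Module A Q]
    (π : F →ₗ[A] R) (hπ : Function.Surjective π) (ψ : F →ₗ[A] Q)
    (h : LinearMap.ker π ≤ LinearMap.ker ψ) (e : F) : fac π hπ ψ h (π e) = ψ e := by
  unfold fac
  have h1 : (π.quotKerEquivOfSurjective hπ).symm (π e) = Submodule.Quotient.mk e := by
    rw [LinearEquiv.symm_apply_eq]
    rfl
  change (LinearMap.ker π).liftQ ψ h ((π.quotKerEquivOfSurjective hπ).symm (π e)) = ψ e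
  rw [h1]
  rfl

/-- the module `N` attached to `w : R → Q / A`. -/
def NSub (w : R →ₗ[A] (FractionRing A ⧸ QA A)) : Submodule A (R × (R →ₗ[A] FractionRing A)) where
  carrier := {x | ∀ s : R, (QA A).mkQ (x.2 s) = w (x.1 * s)}
  add_mem' := by
    intro x y hx hy s
    have h1 := hx s
    have h2 := hy s
    change (QA A).mkQ (x.2 s + y.2 s) = w ((x.1 + y.1) * s)
    rw [map_add, h1, h2, add_mul, map_add]
  zero_mem' := by
    intro s
    change (QA A).mkQ 0 = w (0 * s)
    rw [zero_mul, map_zero, map_zero]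
  smul_mem' := by
    intro a x hx s
    have h1 := hx s
    change (QA A).mkQ (a • x.2 s) = w ((a • x.1) * s)
    rw [map_smul, h1, smul_mul_assoc, map_smul]

omit [IsDomain A] in
theorem mem_NSub {w : R →ₗ[A] (FractionRing A ⧸ QA A)} {x : R × (R →ₗ[A] FractionRing A)} :
    x ∈ NSub w ↔ ∀ s : R, (QA A).mkQ (x.2 s) = w (x.1 * s) := Iff.rfl

/-- the `R`-action on `N`. -/
noncomputable instance NSub.smulR (w : R →ₗ[A] (FractionRing A ⧸ QA A)) : SMul R (NSub w) where
  smul r x := ⟨(r * x.1.1, x.1.2 ∘ₗ LinearMap.mulLeft A r), by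
    intro s
    change (QA A).mkQ (x.1.2 (r * s)) = w ((r * x.1.1) * s)
    rw [x.2 (r * s)]
    congr 1
    ring⟩

omit [IsDomain A] in
theorem NSub.smul_fst {w : R →ₗ[A] (FractionRing A ⧸ QA A)} (r : R) (x : NSub w) :
    (r • x).1.1 = r * x.1.1 := rfl

omit [IsDomain A] in
theorem NSub.smul_snd {w : R →ₗ[A] (FractionRing A ⧸ QA A)} (r : R) (x : NSub w) (s : R) :
    (r • x).1.2 s = x.1.2 (r * s) := rfl

omit [IsDomain A] in
theorem NSub.ext' {w : R →ₗ[A] (FractionRing A ⧸ QA A)} {x y : NSub w} (h1 : x.1.1 = y.1.1)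
    (h2 : ∀ s, x.1.2 s = y.1.2 s) : x = y :=
  Subtype.ext (Prod.ext h1 (LinearMap.ext h2))

noncomputable instance NSub.moduleR (w : R →ₗ[A] (FractionRing A ⧸ QA A)) :
    Module R (NSub w) where
  one_smul x := NSub.ext' (by rw [NSub.smul_fst, one_mul]) (fun s => by
    rw [NSub.smul_snd, one_mul])
  mul_smul r r' x := NSub.ext' (by simp only [NSub.smul_fst, mul_assoc]) (fun s => by
    rw [NSub.smul_snd, NSub.smul_snd, NSub.smul_snd]
    congr 1
    ring)
  smul_zero r := NSub.ext' (by rw [NSub.smul_fst]; exact mul_zero r) (fun s => by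
    rw [NSub.smul_snd]
    rfl)
  smul_add r x y := NSub.ext' (by rw [NSub.smul_fst]; exact mul_add r x.1.1 y.1.1) (fun s => by
    rw [NSub.smul_snd]
    rfl)
  add_smul r r' x := NSub.ext' (by rw [NSub.smul_fst]; exact add_mul r r' x.1.1) (fun s => by
    rw [NSub.smul_snd, add_mul, map_add]
    rfl)
  zero_smul x := NSub.ext' (by rw [NSub.smul_fst]; exact zero_mul x.1.1) (fun s => by
    rw [NSub.smul_snd, zero_mul, map_zero]
    rfl)

instance NSub.towerR (w : R →ₗ[A] (FractionRing A ⧸ QA A)) : IsScalarTower A R (NSub w) where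
  smul_assoc a r x := NSub.ext' (by
      rw [NSub.smul_fst]
      change (a • r) * x.1.1 = a • (r • x).1.1
      rw [NSub.smul_fst, smul_mul_assoc]) (fun s => by
      rw [NSub.smul_snd]
      change x.1.2 ((a • r) * s) = a • (r • x).1.2 s
      rw [NSub.smul_snd, smul_mul_assoc, map_smul])

end

section Theta

variable {A : Type u} [CommRing A] [IsDomain A] {R : Type u} [CommRing R] [Algebra A R]
  {F : Type u} [AddCommGroup F] [Module A F] (π : F →ₗ[A] R) (hπ : Function.Surjective π)
  (w : R →ₗ[A] (FractionRing A ⧸ QA A)) (B : F →ₗ[A] F →ₗ[A] FractionRing A)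
  (hB : ∀ e e', (QA A).mkQ (B e e') = w (π e * π e'))
  (β : LinearMap.ker π →ₗ[A] Module.Dual A F)
  (hβ : ∀ (g : LinearMap.ker π) (e : F), algebraMap A (FractionRing A) (β g e) = B g e)
  (hsymm : ∀ e e', B e e' = B e' e)

/-- the functional `B e + f` on `F` -/
noncomputable def psi (x : F × Module.Dual A F) : F →ₗ[A] FractionRing A :=
  B x.1 + (Algebra.linearMap A (FractionRing A)) ∘ₗ x.2

omit [IsDomain A] in
theorem psi_apply (x : F × Module.Dual A F) (e : F) :
    psi B x e = B x.1 e + algebraMap A (FractionRing A) (x.2 e) := rfl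

include hβ hsymm in
omit [IsDomain A] in
theorem psi_ker (x : LinearMap.ker (pMap (LinearMap.ker π) β)) :
    LinearMap.ker π ≤ LinearMap.ker (psi B x.1) := by
  intro g hg
  rw [LinearMap.mem_ker, psi_apply, hsymm]
  have h1 := hβ ⟨g, hg⟩ x.1.1
  change _ = B g x.1.1 at h1
  rw [← h1, ← map_add]
  have h2 : pMap (LinearMap.ker π) β x.1 ⟨g, hg⟩ = 0 := by
    rw [LinearMap.mem_ker.1 x.2]
    rfl
  rw [pMap_apply] at h2
  change β ⟨g, hg⟩ x.1.1 + x.1.2 g = 0 at h2
  rw [h2, map_zero]

/-- the map from `ker p` to `N` -/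
noncomputable def Theta : LinearMap.ker (pMap (LinearMap.ker π) β) →ₗ[A] NSub w where
  toFun x := ⟨(π x.1.1, fac π hπ (psi B x.1) (psi_ker π B β hβ hsymm x)), by
    intro s
    obtain ⟨e, rfl⟩ := hπ s
    change (QA A).mkQ (fac π hπ (psi B x.1) (psi_ker π B β hβ hsymm x) (π e)) = _
    rw [fac_apply, psi_apply, map_add, hB]
    have : (QA A).mkQ (algebraMap A (FractionRing A) (x.1.2 e)) = 0 := by
      rw [Submodule.mkQ_apply, Submodule.Quotient.mk_eq_zero]
      exact mem_QA.2 ⟨_, rfl⟩
    rw [this, add_zero]⟩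
  map_add' x y := by
    refine NSub.ext' ?_ ?_
    · exact map_add π x.1.1 y.1.1
    · intro s
      obtain ⟨e, rfl⟩ := hπ s
      change fac π hπ (psi B (x + y).1) (psi_ker π B β hβ hsymm (x + y)) (π e)
        = fac π hπ (psi B x.1) (psi_ker π B β hβ hsymm x) (π e)
          + fac π hπ (psi B y.1) (psi_ker π B β hβ hsymm y) (π e)
      rw [fac_apply, fac_apply, fac_apply, psi_apply, psi_apply, psi_apply]
      change B (x.1.1 + y.1.1) e + algebraMap A (FractionRing A) (x.1.2 e + y.1.2 e) = _
      rw [map_add, map_add, LinearMap.add_apply]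
      ring
  map_smul' a x := by
    refine NSub.ext' ?_ ?_
    · exact map_smul π a x.1.1
    · intro s
      obtain ⟨e, rfl⟩ := hπ s
      change fac π hπ (psi B (a • x).1) (psi_ker π B β hβ hsymm (a • x)) (π e)
        = a • fac π hπ (psi B x.1) (psi_ker π B β hβ hsymm x) (π e)
      rw [fac_apply, fac_apply, psi_apply, psi_apply]
      change B (a • x.1.1) e + algebraMap A (FractionRing A) (a • x.1.2 e) = _
      rw [map_smul, LinearMap.smul_apply, smul_eq_mul, map_mul, smul_add, Algebra.smul_def a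
        (algebraMap A (FractionRing A) (x.1.2 e))]

omit [IsDomain A] in
theorem Theta_fst (x : LinearMap.ker (pMap (LinearMap.ker π) β)) :
    (Theta π hπ w B hB β hβ hsymm x).1.1 = π x.1.1 := rfl

omit [IsDomain A] in
theorem Theta_snd (x : LinearMap.ker (pMap (LinearMap.ker π) β)) (e : F) :
    (Theta π hπ w B hB β hβ hsymm x).1.2 (π e)
      = B x.1.1 e + algebraMap A (FractionRing A) (x.1.2 e) := by
  change fac π hπ (psi B x.1) (psi_ker π B β hβ hsymm x) (π e) = _
  rw [fac_apply, psi_apply]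

/-- a map to `Q` with values in `A` comes from a map to `A`. -/
theorem exists_lift {M : Type u} [AddCommGroup M] [Module A M] (h : M →ₗ[A] FractionRing A)
    (hh : ∀ m, h m ∈ QA A) :
    ∃ f : M →ₗ[A] A, ∀ m, algebraMap A (FractionRing A) (f m) = h m := by
  let ι : A ≃ₗ[A] QA A := LinearEquiv.ofInjective (Algebra.linearMap A (FractionRing A))
    algMap_inj
  refine ⟨ι.symm.toLinearMap ∘ₗ LinearMap.codRestrict (QA A) h hh, fun m => ?_⟩
  have h1 : ι (ι.symm (LinearMap.codRestrict (QA A) h hh m))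
      = LinearMap.codRestrict (QA A) h hh m := LinearEquiv.apply_symm_apply _ _
  exact congrArg Subtype.val h1

theorem Theta_surjective : Function.Surjective (Theta π hπ w B hB β hβ hsymm) := by
  intro y
  obtain ⟨e, he⟩ := hπ y.1.1
  -- the difference `φ ∘ π - B e`
  let h : F →ₗ[A] FractionRing A := y.1.2 ∘ₗ π - B e
  have hh : ∀ m, h m ∈ QA A := by
    intro m
    rw [← Submodule.Quotient.mk_eq_zero, ← Submodule.mkQ_apply]
    change (QA A).mkQ (y.1.2 (π m) - B e m) = 0
    rw [map_sub, hB, y.2, he, sub_self]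
  obtain ⟨f, hf⟩ := exists_lift h hh
  have hmem : (e, f) ∈ LinearMap.ker (pMap (LinearMap.ker π) β) := by
    rw [LinearMap.mem_ker]
    ext g
    rw [pMap_apply, LinearMap.zero_apply]
    apply algMap_inj
    rw [map_add, hβ, hf, map_zero, hsymm]
    change B e g + (y.1.2 (π g) - B e g) = 0
    rw [LinearMap.mem_ker.1 g.2, map_zero]
    ring
  refine ⟨⟨(e, f), hmem⟩, ?_⟩
  refine NSub.ext' ?_ ?_
  · rw [Theta_fst]
    exact he
  · intro s
    obtain ⟨m, rfl⟩ := hπ s
    rw [Theta_snd]
    change B e m + algebraMap A (FractionRing A) (f m) = _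
    rw [hf]
    change B e m + (y.1.2 (π m) - B e m) = _
    ring

theorem Theta_ker (x : LinearMap.ker (pMap (LinearMap.ker π) β)) :
    Theta π hπ w B hB β hβ hsymm x = 0 ↔ ∃ g, iMap (LinearMap.ker π) β g = x := by
  constructor
  · intro hx
    have h1 : π x.1.1 = 0 := by
      rw [← Theta_fst π hπ w B hB β hβ hsymm x, hx]
      rfl
    refine ⟨⟨x.1.1, h1⟩, ?_⟩
    rw [iMap_apply]
    refine Prod.ext rfl ?_
    ext e
    have h2 := Theta_snd π hπ w B hB β hβ hsymm x e
    rw [hx] at h2
    change (0 : FractionRing A) = _ at h2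
    apply algMap_inj
    change algebraMap A (FractionRing A) (-(β ⟨x.1.1, h1⟩ e)) = _
    rw [map_neg, hβ]
    change -(B x.1.1 e) = _
    linear_combination h2
  · rintro ⟨g, hg⟩
    refine NSub.ext' ?_ ?_
    · rw [Theta_fst, ← hg, iMap_apply]
      exact LinearMap.mem_ker.1 g.2
    · intro s
      obtain ⟨e, rfl⟩ := hπ s
      rw [Theta_snd, ← hg, iMap_apply]
      change B g e + algebraMap A (FractionRing A) (-(β g e)) = 0
      rw [map_neg, hβ]
      ring

include hπ hB hβ hsymm in
/-- projectivity of `N` -/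
theorem NSub_projective [Module.Finite A F] [Module.Free A F] [IsLocalRing A] [IsNoetherianRing A]
    [Module.Free A (LinearMap.ker π)]
    (hstar : ∀ g : LinearMap.ker π, (g : F) ∈ (maximalIdeal A • (⊤ : Submodule A F)) →
      (∀ e, β g e ∈ maximalIdeal A) →
      g ∈ (maximalIdeal A • (⊤ : Submodule A (LinearMap.ker π)))) :
    Module.Projective A (NSub w) ∧ Module.Finite A (NSub w) := by
  have hfin : Module.Finite A (LinearMap.ker π) := inferInstance
  obtain ⟨ρ, hρ⟩ := split_of_mem (iMap (LinearMap.ker π) β) (by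
    intro g hg
    apply hstar g
    · have := Submodule.smul_top_le_comap_smul_top (maximalIdeal A)
        (LinearMap.fst A F (Module.Dual A F)) hg
      exact this
    · intro e
      have h1 := Submodule.smul_top_le_comap_smul_top (maximalIdeal A)
        ((LinearMap.applyₗ e) ∘ₗ (LinearMap.snd A F (Module.Dual A F))) hg
      rw [Submodule.mem_comap] at h1
      change -(β g e) ∈ _ at h1
      rw [smul_eq_mul, Ideal.mul_top] at h1
      exact (Submodule.neg_mem_iff _).1 h1)
  refine ⟨?_, ?_⟩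
  · refine projective_of_data (N := NSub w) (LinearMap.ker π) β ?_ ρ hρ
      (Theta π hπ w B hB β hβ hsymm)
      (Theta_surjective π hπ w B hB β hβ hsymm) (Theta_ker π hπ w B hB β hβ hsymm)
    intro g g'
    apply algMap_inj
    rw [hβ, hβ, hsymm]
  · have : Module.Finite A (LinearMap.ker (pMap (LinearMap.ker π) β)) := inferInstance
    exact Module.Finite.of_surjective (Theta π hπ w B hB β hβ hsymm)
      (Theta_surjective π hπ w B hB β hβ hsymm)

end Theta

end Vale.Agent.P190
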