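import Mathlib

namespace Vale.Agent.P190

/-- `M` is a small (maximal) Cohen–Macaulay module over the local ring `R`: it is finitely
generated and there is an `M`-regular sequence in the maximal ideal of length `dim R`
(regularity of the sequence `rs` on `M` includes `M ≠ (rs) M`, in particular `M ≠ 0`). -/
def IsSmallCohenMacaulay (R : Type*) [CommRing R] [IsLocalRing R] (M : Type*) [AddCommGroup M]
    [Module R M] : Prop :=
  Module.Finite R M ∧ ∃ rs : List R, (∀ r ∈ rs, r ∈ IsLocalRing.maximalIdeal R) ∧
    (rs.length : WithBot ℕ∞) = ringKrullDim R ∧ RingTheory.Sequence.IsRegular M rs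

end Vale.Agent.P190
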