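import Vale.Agent.Lib.P190.KerReg
import Vale.Agent.Lib.P190.Construction

/-!
# P190: elementary facts used in the choice of `w`
-/

namespace Vale.Agent.P190

open IsLocalRing RingTheory.Sequence

universe u

section Elem

variable {A : Type u} [CommRing A] {ys : List A} {z : A}

theorem mem_max_smul [IsLocalRing A] (hmax : Ideal.ofList (ys ++ [z]) = maximalIdeal A)
    {M : Type u} [AddCommGroup M] [Module A M] (x : M) :
    x ∈ (maximalIdeal A • (⊤ : Submodule A M)) ↔
      ∃ u : M, x - z • u ∈ (Ideal.ofList ys • (⊤ : Submodule A M)) := by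
  rw [← hmax, Ideal.ofList_append, Ideal.ofList_singleton, Submodule.sup_smul,
    Submodule.ideal_span_singleton_smul, Submodule.mem_sup]
  constructor
  · rintro ⟨y, hy, t, ht, rfl⟩
    obtain ⟨u, -, rfl⟩ := (Submodule.mem_smul_pointwise_iff_exists _ _ _).1 ht
    exact ⟨u, by simpa using hy⟩
  · rintro ⟨u, hu⟩
    exact ⟨_, hu, z • u, Submodule.smul_mem_pointwise_smul _ _ _ trivial, by simp⟩

theorem mem_of_z_smul {M : Type u} [AddCommGroup M] [Module A M]
    (hM : IsWeaklyRegular M (ys ++ [z])) (x : M)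
    (h : z • x ∈ (Ideal.ofList ys • (⊤ : Submodule A M))) :
    x ∈ (Ideal.ofList ys • (⊤ : Submodule A M)) := by
  have h1 := ((isWeaklyRegular_append_iff M ys [z]).1 hM).2
  rw [isWeaklyRegular_singleton_iff] at h1
  exact mem_of_isSMulRegular_quotient_of_smul_mem h1 h

variable {R : Type u} [AddCommGroup R] [Module A R]

theorem map_mem_smul {M N : Type u} [AddCommGroup M] [Module A M] [AddCommGroup N] [Module A N]
    (I : Ideal A) (f : M →ₗ[A] N) {x : M} (hx : x ∈ (I • (⊤ : Submodule A M))) :
    f x ∈ (I • (⊤ : Submodule A N)) :=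
  Submodule.smul_top_le_comap_smul_top I f hx

theorem exists_preimage_smul {M : Type u} [AddCommGroup M] [Module A M] (I : Ideal A)
    (π : M →ₗ[A] R) (hπ : Function.Surjective π) {x : R} (hx : x ∈ (I • (⊤ : Submodule A R))) :
    ∃ t ∈ (I • (⊤ : Submodule A M)), π t = x := by
  have h1 : (I • (⊤ : Submodule A M)).map π = (I • (⊤ : Submodule A R)) := by
    rw [Submodule.map_smul'', Submodule.map_top, LinearMap.range_eq_top.2 hπ]
  rw [← h1] at hx
  obtain ⟨t, ht, rfl⟩ := hx
  exact ⟨t, ht, rfl⟩

theorem fact_c [IsLocalRing A] (hmax : Ideal.ofList (ys ++ [z]) = maximalIdeal A)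
    {M : Type u} [AddCommGroup M] [Module A M] (π : M →ₗ[A] R) (hπ : Function.Surjective π)
    (hR : IsWeaklyRegular R ys) (g : LinearMap.ker π) (u : M)
    (hgu : (g : M) - z • u ∈ (Ideal.ofList ys • (⊤ : Submodule A M)))
    (hu : π u ∈ (Ideal.ofList ys • (⊤ : Submodule A R))) :
    g ∈ (maximalIdeal A • (⊤ : Submodule A (LinearMap.ker π))) := by
  obtain ⟨u', hu', hπu'⟩ := exists_preimage_smul (Ideal.ofList ys) π hπ hu
  have hker : u - u' ∈ LinearMap.ker π := by
    rw [LinearMap.mem_ker, map_sub, hπu', sub_self]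
  rw [mem_max_smul hmax]
  refine ⟨⟨u - u', hker⟩, ?_⟩
  apply mem_smul_ker hR π hπ
  have h1 : ((g - z • (⟨u - u', hker⟩ : LinearMap.ker π) : LinearMap.ker π) : M)
      = ((g : M) - z • u) + z • u' := by
    change (g : M) - z • (u - u') = _
    rw [smul_sub]
    abel
  rw [h1]
  exact Submodule.add_mem _ hgu (Submodule.smul_mem _ _ hu')

/-- a vector outside `𝔪 M` of a free module has a unit coordinate. -/
theorem exists_functional [IsLocalRing A] {M : Type u} [AddCommGroup M] [Module A M]
    [Module.Free A M] [Module.Finite A M] (g : M)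
    (hg : g ∉ (maximalIdeal A • (⊤ : Submodule A M))) :
    ∃ v : M →ₗ[A] A, v g ∉ maximalIdeal A := by
  by_contra hcon
  push Not at hcon
  apply hg
  have b := Module.Free.chooseBasis A M
  rw [← b.sum_repr g]
  refine Submodule.sum_mem _ (fun i _ => ?_)
  exact Submodule.smul_mem_smul (hcon (b.coord i)) trivial

end Elem

/-- the fraction field is injective. -/
theorem baer_fractionRing (A : Type u) [CommRing A] [IsDomain A] :
    Module.Baer A (FractionRing A) := by
  intro I g
  by_cases hI : I = ⊥
  · refine ⟨0, fun x hx => ?_⟩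
    have : (⟨x, hx⟩ : I) = 0 := by
      apply Subtype.ext
      rw [hI] at hx
      exact hx
    rw [this, map_zero]
    rfl
  · obtain ⟨a, haI, ha⟩ := Submodule.exists_mem_ne_zero_of_ne_bot hI
    have ha' : algebraMap A (FractionRing A) a ≠ 0 := by
      intro h
      exact ha (algMap_inj (by rw [h, map_zero]))
    refine ⟨LinearMap.toSpanSingleton A (FractionRing A)
      (g ⟨a, haI⟩ / algebraMap A (FractionRing A) a), fun x hx => ?_⟩
    rw [LinearMap.toSpanSingleton_apply, Algebra.smul_def]
    have h1 : a • g ⟨x, hx⟩ = x • g ⟨a, haI⟩ := by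
      rw [← map_smul, ← map_smul]
      congr 1
      apply Subtype.ext
      change a * x = x * a
      ring
    rw [Algebra.smul_def, Algebra.smul_def] at h1
    field_simp
    rw [← h1]

end Vale.Agent.P190
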