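import Mathlib

/-!
# P190: a freeness criterion

A finite module over a Noetherian local ring on which a generating sequence of the maximal ideal
is weakly regular is free.
-/

namespace Vale.Agent.P190

open IsLocalRing RingTheory.Sequence

universe u v

theorem free_of_isWeaklyRegular_aux (n : ℕ) : ∀ (A : Type u) [CommRing A] [IsLocalRing A]
    [IsNoetherianRing A] (M : Type v) [AddCommGroup M] [Module A M] [Module.Finite A M]
    (rs : List A), rs.length = n → Ideal.ofList rs = maximalIdeal A → IsWeaklyRegular M rs →
    Module.Free A M := by
  induction n with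
  | zero =>
    intro A _ _ _ M _ _ _ rs hlen hmax _
    rw [List.length_eq_zero_iff] at hlen
    subst hlen
    rw [Ideal.ofList_nil] at hmax
    have hf : IsField A := IsLocalRing.isField_iff_maximalIdeal_eq.2 hmax.symm
    let := hf.toField
    infer_instance
  | succ n ih =>
    intro A _ _ _ M _ _ _ rs hlen hmax hreg
    obtain ⟨r, rs', rfl⟩ : ∃ r rs', rs = r :: rs' := by
      cases rs with
      | nil => simp at hlen
      | cons r rs' => exact ⟨r, rs', rfl⟩
    rw [isWeaklyRegular_cons_iff'] at hreg
    have hr : r ∈ maximalIdeal A := by
      rw [← hmax]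
      exact Ideal.subset_span (by simp)
    have hjac : r ∈ (⊥ : Ideal A).jacobson := by
      rw [IsLocalRing.jacobson_eq_maximalIdeal _ bot_ne_top]
      exact hr
    have : Nontrivial (A ⧸ Ideal.span {r}) := Ideal.Quotient.nontrivial_iff.2 (by
      intro h
      rw [Ideal.span_singleton_eq_top] at h
      exact (mem_maximalIdeal r).1 hr h)
    have : IsLocalRing (A ⧸ Ideal.span {r}) :=
      IsLocalRing.of_surjective' (Ideal.Quotient.mk _) Ideal.Quotient.mk_surjective
    have : Module.FinitePresentation A M := Module.finitePresentation_of_finite A M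
    rw [← Module.free_quotSMulTop_iff_free A M hjac hreg.1]
    have : Module.Finite (A ⧸ Ideal.span {r}) (QuotSMulTop r M) :=
      Module.Finite.of_restrictScalars_finite A _ _
    refine ih (A ⧸ Ideal.span {r}) (QuotSMulTop r M)
      (rs'.map (Ideal.Quotient.mk (Ideal.span {r}))) (by simpa using hlen) ?_ hreg.2
    have h1 : Ideal.map (Ideal.Quotient.mk (Ideal.span {r})) (Ideal.ofList (r :: rs'))
        = Ideal.map (Ideal.Quotient.mk (Ideal.span {r})) (maximalIdeal A) := by rw [hmax]
    rw [Ideal.ofList_cons, Ideal.map_sup, Ideal.map_quotient_self, bot_sup_eq,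
      Ideal.map_ofList] at h1
    rw [h1]
    exact IsLocalRing.map_maximalIdeal_of_surjective (Ideal.Quotient.mk (Ideal.span {r}))
      Ideal.Quotient.mk_surjective

/-- A finite module over a Noetherian local ring on which a generating sequence of the maximal
ideal is weakly regular is free. -/
theorem free_of_isWeaklyRegular {A : Type u} [CommRing A] [IsLocalRing A]
    [IsNoetherianRing A] (M : Type v) [AddCommGroup M] [Module A M] [Module.Finite A M]
    (rs : List A) (hmax : Ideal.ofList rs = maximalIdeal A) (hreg : IsWeaklyRegular M rs) :
    Module.Free A M :=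
  free_of_isWeaklyRegular_aux rs.length A M rs rfl hmax hreg

end Vale.Agent.P190
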