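import Mathlib

/-!
# P190: weakly regular sequences on the kernel of a surjection
-/

namespace Vale.Agent.P190

open RingTheory.Sequence

universe u v w

variable {A : Type u} [CommRing A] {M : Type v} [AddCommGroup M] [Module A M]
  {M'' : Type w} [AddCommGroup M''] [Module A M'']

theorem isWeaklyRegular_take {rs : List A} (h : IsWeaklyRegular M'' rs) (i : ℕ) :
    IsWeaklyRegular M'' (rs.take i) := by
  have h1 : IsWeaklyRegular M'' (rs.take i ++ rs.drop i) := by rwa [List.take_append_drop]
  exact ((isWeaklyRegular_append_iff M'' _ _).1 h1).1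

/-- If `rs` is weakly regular on `M''` and `π : M → M''` is surjective, then
`ker π ∩ (rs) M = (rs) ker π`. -/
theorem mem_smul_ker {rs : List A} (h : IsWeaklyRegular M'' rs) (π : M →ₗ[A] M'')
    (hπ : Function.Surjective π) (g : LinearMap.ker π)
    (hg : (g : M) ∈ (Ideal.ofList rs • (⊤ : Submodule A M))) :
    g ∈ (Ideal.ofList rs • (⊤ : Submodule A (LinearMap.ker π))) := by
  have h12 : Function.Exact (0 : PUnit.{v+1} →ₗ[A] LinearMap.ker π)
      (LinearMap.ker π).subtype := by
    intro x
    constructor
    · intro hx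
      have : x = 0 := Subtype.ext hx
      exact ⟨0, by rw [this]; rfl⟩
    · rintro ⟨y, rfl⟩
      rfl
  have h23 : Function.Exact (LinearMap.ker π).subtype π := LinearMap.exact_subtype_ker_map π
  have key := map_first_exact_on_four_term_right_exact_of_isSMulRegular_last h12 h23 hπ h
  have h1 := (key (Submodule.Quotient.mk g)).1 (by
    rw [Submodule.mapQ_apply, Submodule.Quotient.mk_eq_zero]
    exact hg)
  obtain ⟨y, hy⟩ := h1
  rw [← Submodule.Quotient.mk_eq_zero, ← hy]
  obtain ⟨y, rfl⟩ := Submodule.Quotient.mk_surjective _ y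
  rw [Submodule.mapQ_apply]
  simp

theorem coe_mem_smul (I : Ideal A) (π : M →ₗ[A] M'') (g : LinearMap.ker π)
    (hg : g ∈ (I • (⊤ : Submodule A (LinearMap.ker π)))) :
    (g : M) ∈ (I • (⊤ : Submodule A M)) :=
  Submodule.smul_top_le_comap_smul_top I (LinearMap.ker π).subtype hg

theorem isWeaklyRegular_ker {rs : List A} {z : A} (hM : IsWeaklyRegular M (rs ++ [z]))
    (h : IsWeaklyRegular M'' rs) (π : M →ₗ[A] M'') (hπ : Function.Surjective π) :
    IsWeaklyRegular (LinearMap.ker π) (rs ++ [z]) := by
  rw [isWeaklyRegular_iff] at hM ⊢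
  intro i hi
  have htake : (rs ++ [z]).take i = rs.take i := by
    rw [List.take_append_of_le_length]
    rw [List.length_append, List.length_singleton] at hi
    omega
  have h1 := hM i hi
  rw [isSMulRegular_quotient_iff_mem_of_smul_mem] at h1 ⊢
  intro x hx
  rw [htake] at h1 hx ⊢
  refine mem_smul_ker (isWeaklyRegular_take h i) π hπ x (h1 (x : M) ?_)
  exact coe_mem_smul _ π _ hx

end Vale.Agent.P190
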