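import Vale.Agent.Lib.P190.Defs
import Vale.Agent.Lib.P190.Choice
import Vale.Agent.Lib.P190.FreeCrit

/-!
# P190: from `A`-free modules to small Cohen–Macaulay modules; socles; assembly
-/

namespace Vale.Agent.P190

open IsLocalRing RingTheory.Sequence Module

universe u

section Dim

variable {A : Type u} [CommRing A] [IsDomain A] [IsLocalRing A] [IsNoetherianRing A]
  {R : Type u} [CommRing R] [IsLocalRing R] [Algebra A R] [Module.Finite A R]

omit [IsDomain A] [IsNoetherianRing A] in
/-- a prime of `R` containing `𝔪_A R` is maximal. -/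
theorem isMaximal_of_prime_of_le (P : Ideal R) [P.IsPrime]
    (hP : ∀ a ∈ maximalIdeal A, algebraMap A R a ∈ P) : P.IsMaximal := by
  apply Ideal.isMaximal_of_isIntegral_of_isMaximal_comap (R := A) P
  have h1 : (maximalIdeal A) ≤ Ideal.comap (algebraMap A R) P := hP
  have h2 : Ideal.comap (algebraMap A R) P ≠ ⊤ := by
    intro h
    rw [Ideal.comap_eq_top_iff] at h
    exact Ideal.IsPrime.ne_top ‹_› h
  have h3 : Ideal.comap (algebraMap A R) P = maximalIdeal A :=
    ((maximalIdeal.isMaximal A).eq_of_le h2 h1).symm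
  rw [h3]
  exact maximalIdeal.isMaximal A

omit [IsDomain A] [IsNoetherianRing A] in
theorem algebraMap_mem_maximalIdeal {a : A} (ha : a ∈ maximalIdeal A) :
    algebraMap A R a ∈ maximalIdeal R := by
  have h1 : Ideal.comap (algebraMap A R) (maximalIdeal R) = maximalIdeal A := by
    apply IsLocalRing.eq_maximalIdeal
    exact Ideal.isMaximal_comap_of_isIntegral_of_isMaximal (maximalIdeal R)
  rw [← h1] at ha
  exact ha

/-- An `R`-module which is finite projective and nonzero over `A` is a small Cohen–Macaulay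
module. -/
theorem isSmallCM_of_projective [IsDomain R] {rs : List A}
    (hmax : Ideal.ofList rs = maximalIdeal A) (hreg : IsWeaklyRegular A rs)
    (N : Type u) [AddCommGroup N] [Module A N] [Module R N] [IsScalarTower A R N]
    [Module.Finite A N] [Module.Projective A N] [Nontrivial N] : IsSmallCohenMacaulay R N := by
  have hfin : Module.Finite R N := Module.Finite.of_restrictScalars_finite A R N
  have hnoeth : IsNoetherianRing R := isNoetherian_of_isNoetherianRing_of_finite A R |> fun h =>
    isNoetherian_of_tower A h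
  have hmem : ∀ r ∈ rs.map (algebraMap A R), r ∈ maximalIdeal R := by
    intro r hr
    obtain ⟨a, ha, rfl⟩ := List.mem_map.1 hr
    apply algebraMap_mem_maximalIdeal
    rw [← hmax]
    exact Ideal.subset_span ha
  -- regularity
  have hN : IsWeaklyRegular N rs := by
    have h1 : IsWeaklyRegular (TensorProduct A N A) rs := hreg.isWeaklyRegular_lTensor
    exact ((TensorProduct.rid A N).isWeaklyRegular_congr rs).1 h1
  have hN' : IsWeaklyRegular N (rs.map (algebraMap A R)) :=
    (isWeaklyRegular_map_algebraMap_iff R N rs).2 hN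
  have hNreg : IsRegular N (rs.map (algebraMap A R)) :=
    IsRegular.of_isWeaklyRegular_of_mem_maximalIdeal N hmem hN'
  refine ⟨hfin, rs.map (algebraMap A R), hmem, ?_, hNreg⟩
  -- dimension
  have hdim := Module.supportDim_add_length_eq_supportDim_of_isRegular _ hNreg
  have hann : annihilator R N = ⊥ := by
    by_contra hne
    obtain ⟨x, hx, hx0⟩ := Submodule.exists_mem_ne_zero_of_ne_bot hne
    have h1 := Ideal.comap_ne_bot_of_integral_mem (R := A) hx0 hx
      (Algebra.IsIntegral.isIntegral x)
    obtain ⟨a, ha, ha0⟩ := Submodule.exists_mem_ne_zero_of_ne_bot h1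
    obtain ⟨n, hn⟩ := exists_ne (0 : N)
    have h2 : a • n = 0 := by
      rw [← algebraMap_smul R a n]
      exact Module.mem_annihilator.1 ha n
    rcases smul_eq_zero.1 h2 with h | h
    · exact ha0 h
    · exact hn h
  have h1 : supportDim R N = ringKrullDim R := by
    rw [supportDim_eq_ringKrullDim_quotient_annihilator, hann]
    exact RingEquiv.ringKrullDim (RingEquiv.quotientBot R)
  have h2 : supportDim R (N ⧸ Ideal.ofList (rs.map (algebraMap A R)) • (⊤ : Submodule R N)) = 0 := by
    have hnt : Nontrivial (N ⧸ Ideal.ofList (rs.map (algebraMap A R)) • (⊤ : Submodule R N)) :=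
      hNreg.quot_ofList_smul_nontrivial ⊤
    rw [supportDim_eq_ringKrullDim_quotient_annihilator]
    set J := annihilator R (N ⧸ Ideal.ofList (rs.map (algebraMap A R)) • (⊤ : Submodule R N))
      with hJ
    have hJne : J ≠ ⊤ := by
      intro h
      rw [hJ, annihilator_eq_top_iff] at h
      exact not_subsingleton _ h
    have : Nontrivial (R ⧸ J) := Ideal.Quotient.nontrivial_iff.2 hJne
    rw [← ringKrullDimZero_iff_ringKrullDim_eq_zero,
      Ideal.krullDimLE_zero_quotient_iff_forall_minimalPrimes_isMaximal]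
    intro P hP
    have hPp : P.IsPrime := hP.1.1
    refine isMaximal_of_prime_of_le (A := A) P (fun a ha => hP.1.2 ?_)
    rw [hJ, Module.mem_annihilator]
    intro x
    obtain ⟨x, rfl⟩ := Submodule.Quotient.mk_surjective _ x
    rw [← Submodule.Quotient.mk_smul, Submodule.Quotient.mk_eq_zero]
    refine Submodule.smul_mem_smul ?_ trivial
    rw [← Ideal.map_ofList, hmax]
    exact Ideal.mem_map_of_mem _ ha
  rw [h2, h1, zero_add] at hdim
  exact hdim

end Dim

section Socle

variable {A : Type u} [CommRing A] [IsLocalRing A] [IsNoetherianRing A]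
  {S : Type u} [CommRing S] [IsLocalRing S] [Algebra A S] [Module.Finite A S]

omit [IsLocalRing A] [IsNoetherianRing A] [IsLocalRing S] [Module.Finite A S] in
theorem mem_smul_top_iff (ys : List A) (x : S) :
    x ∈ (Ideal.ofList ys • (⊤ : Submodule A S)) ↔ x ∈ Ideal.ofList (ys.map (algebraMap A S)) := by
  rw [Ideal.smul_top_eq_map, Submodule.restrictScalars_mem, Ideal.map_ofList]

/-- if `x ∉ (ys)S` is killed by `𝔪_A` modulo `(ys)S`, a multiple of `x` is a nonzero element of
the socle of `S/(ys)S`. -/
theorem exists_socle_multiple {ys : List A} {z : A}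
    (hmax : Ideal.ofList (ys ++ [z]) = maximalIdeal A) (J : Ideal S)
    (hJ : J = Ideal.ofList (ys.map (algebraMap A S))) (x : S) (hx : x ∉ J)
    (hzx : algebraMap A S z * x ∈ J) :
    ∃ r : S, r * x ∉ J ∧ ∀ m ∈ maximalIdeal S, m * (r * x) ∈ J := by
  have hnoeth : IsNoetherianRing S := isNoetherian_of_isNoetherianRing_of_finite A S |> fun h =>
    isNoetherian_of_tower A h
  -- the cyclic module generated by the class of `x`
  let xb : S ⧸ J := Ideal.Quotient.mk J x
  let M := Submodule.span S {xb}
  let xm : M := ⟨xb, Submodule.mem_span_singleton_self xb⟩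
  have hxm : xm ≠ 0 := by
    intro h
    apply hx
    rw [← Ideal.Quotient.eq_zero_iff_mem]
    exact congrArg Subtype.val h
  obtain ⟨P, hP, hle⟩ := exists_le_isAssociatedPrime_of_isNoetherianRing S xm hxm
  rw [isAssociatedPrime_iff] at hP
  obtain ⟨hPprime, y, hy⟩ := hP
  obtain ⟨r, hr⟩ := Submodule.mem_span_singleton.1 y.2
  have hyr : (y : S ⧸ J) = Ideal.Quotient.mk J (r * x) := by
    rw [← hr, map_mul]
    rfl
  have hcolon : ∀ (m : S) (t : M), m ∈ (⊥ : Submodule S M).colon {t} ↔ m • t = 0 := by
    intro m t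
    rw [Submodule.mem_colon_singleton, Submodule.mem_bot]
  -- `P` is the maximal ideal
  have hPmax : P = maximalIdeal S := by
    apply IsLocalRing.eq_maximalIdeal
    refine isMaximal_of_prime_of_le (A := A) P (fun a ha => hle ?_)
    rw [hcolon]
    apply Subtype.ext
    change algebraMap A S a • xb = 0
    have : algebraMap A S a * x ∈ J := by
      rw [← hmax, Ideal.ofList_append, Ideal.ofList_singleton] at ha
      obtain ⟨b, hb, c, hc, rfl⟩ := Submodule.mem_sup.1 ha
      rw [map_add, add_mul]
      refine Ideal.add_mem _ (Ideal.mul_mem_right _ _ ?_) ?_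
      · rw [hJ, ← Ideal.map_ofList]
        exact Ideal.mem_map_of_mem _ hb
      · obtain ⟨d, rfl⟩ := Ideal.mem_span_singleton'.1 hc
        rw [map_mul, mul_assoc]
        exact Ideal.mul_mem_left _ _ hzx
    change Ideal.Quotient.mk J (algebraMap A S a * x) = 0
    exact Ideal.Quotient.eq_zero_iff_mem.2 this
  refine ⟨r, ?_, ?_⟩
  · intro h
    have hy0 : y = 0 := by
      apply Subtype.ext
      rw [hyr]
      exact Ideal.Quotient.eq_zero_iff_mem.2 h
    apply hPprime.ne_top
    rw [hy, Ideal.eq_top_iff_one, hcolon, hy0, smul_zero]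
  · intro m hm
    rw [← hPmax, hy, hcolon] at hm
    have h1 : m • (y : S ⧸ J) = 0 := congrArg Subtype.val hm
    rw [hyr] at h1
    rw [← Ideal.Quotient.eq_zero_iff_mem]
    exact h1

omit [IsNoetherianRing A] in
theorem mem_socle_iff (J : Ideal S) (x : S) :
    Ideal.Quotient.mk J x ∈ Submodule.torsionBySet S (S ⧸ J) (maximalIdeal S : Set S) ↔
      ∀ m ∈ maximalIdeal S, m * x ∈ J := by
  rw [Submodule.mem_torsionBySet_iff]
  constructor
  · intro h m hm
    have := h ⟨m, hm⟩
    rw [← Ideal.Quotient.eq_zero_iff_mem]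
    exact this
  · intro h m
    have := h m m.2
    rw [← Ideal.Quotient.eq_zero_iff_mem] at this
    exact this

end Socle

section Main

variable {A : Type u} [CommRing A] [IsDomain A] [IsLocalRing A] [IsNoetherianRing A]
  {S : Type u} [CommRing S] [IsLocalRing S] [Algebra A S] [Module.Finite A S]

/-- the module `N` over `S`. -/
theorem exists_module (hinj : Function.Injective (algebraMap A S)) {ys : List A} {z : A}
    (hmax : Ideal.ofList (ys ++ [z]) = maximalIdeal A) (hreg : IsWeaklyRegular A (ys ++ [z]))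
    (hS : IsWeaklyRegular S ys)
    (hsoc : IsSimpleModule S (Submodule.torsionBySet S
      (S ⧸ Ideal.ofList (ys.map (algebraMap A S))) (maximalIdeal S : Set S))) :
    ∃ w : S →ₗ[A] (FractionRing A ⧸ QA A),
      Module.Projective A (NSub w) ∧ Module.Finite A (NSub w) ∧ Nontrivial (NSub w) := by
  set J : Ideal S := Ideal.ofList (ys.map (algebraMap A S)) with hJ
  -- presentation
  obtain ⟨n, π, hπ⟩ := Module.Finite.exists_fin' A S
  have hF : IsWeaklyRegular (Fin n → A) (ys ++ [z]) := by
    have h1 : IsWeaklyRegular (TensorProduct A (Fin n → A) A) (ys ++ [z]) :=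
      hreg.isWeaklyRegular_lTensor
    exact ((TensorProduct.rid A (Fin n → A)).isWeaklyRegular_congr _).1 h1
  have hker : IsWeaklyRegular (LinearMap.ker π) (ys ++ [z]) := isWeaklyRegular_ker hF hS π hπ
  have hfree : Module.Free A (LinearMap.ker π) :=
    free_of_isWeaklyRegular (LinearMap.ker π) (ys ++ [z]) hmax hker
  have hfinker : Module.Finite A (LinearMap.ker π) := inferInstance
  -- the socle element
  have hnt : Nontrivial (Submodule.torsionBySet S (S ⧸ J) (maximalIdeal S : Set S)) :=
    IsSimpleModule.nontrivial S _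
  obtain ⟨sb, hsb⟩ := exists_ne (0 : Submodule.torsionBySet S (S ⧸ J) (maximalIdeal S : Set S))
  obtain ⟨s₀, hs₀⟩ := Ideal.Quotient.mk_surjective (sb : S ⧸ J)
  have hs₀J : s₀ ∉ J := by
    intro h
    apply hsb
    apply Subtype.ext
    rw [← hs₀]
    exact Ideal.Quotient.eq_zero_iff_mem.2 h
  have hs₀soc : ∀ m ∈ maximalIdeal S, m * s₀ ∈ J := by
    rw [← mem_socle_iff, hs₀]
    exact sb.2
  have hz : algebraMap A S z ∈ maximalIdeal S := by
    apply algebraMap_mem_maximalIdeal
    rw [← hmax]
    exact Ideal.subset_span (by simp)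
  obtain ⟨w, B, β, hB, hsymm, hβ, hstar⟩ := exists_choice π hπ hmax hF hS s₀
    (by rwa [mem_smul_top_iff]) (by
      rw [mem_smul_top_iff, Algebra.smul_def]
      exact hs₀soc _ hz) (by
      intro x hx hzx
      rw [mem_smul_top_iff] at hx hzx
      rw [Algebra.smul_def] at hzx
      obtain ⟨r, hr1, hr2⟩ := exists_socle_multiple hmax J hJ x hx hzx
      -- simplicity of the socle
      let t : Submodule.torsionBySet S (S ⧸ J) (maximalIdeal S : Set S) :=
        ⟨Ideal.Quotient.mk J (r * x), (mem_socle_iff J (r * x)).2 hr2⟩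
      have ht : t ≠ 0 := by
        intro h
        apply hr1
        rw [← Ideal.Quotient.eq_zero_iff_mem]
        exact congrArg Subtype.val h
      obtain ⟨c, hc⟩ := IsSimpleModule.toSpanSingleton_surjective S ht sb
      refine ⟨c * r, ?_⟩
      rw [mem_smul_top_iff, ← Ideal.Quotient.eq_zero_iff_mem, map_sub, sub_eq_zero]
      have h1 : c • (Ideal.Quotient.mk J (r * x)) = (sb : S ⧸ J) := congrArg Subtype.val hc
      rw [hs₀, ← h1, mul_assoc, map_mul]
      rfl)
  obtain ⟨hproj, hfin⟩ := NSub_projective π hπ w B hB β hβ hsymm hstar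
  refine ⟨w, hproj, hfin, ?_⟩
  -- nontriviality
  obtain ⟨b, hb⟩ := IsLocalization.exist_integer_multiples_of_finite (nonZeroDivisors A)
    (fun i : Fin n => Function.surjInv (QA A).mkQ_surjective (w (π (Pi.single i 1))))
  have hbw : ∀ e : Fin n → A, (b : A) • w (π e) = 0 := by
    intro e
    have h1 : ((b : A) • (w ∘ₗ π)) = 0 := by
      refine LinearMap.pi_ext' fun i => LinearMap.ext_ring ?_
      change (b : A) • w (π (Pi.single i 1)) = 0
      obtain ⟨a, ha⟩ := hb i
      have h2 := Function.surjInv_eq (QA A).mkQ_surjective (w (π (Pi.single i 1)))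
      rw [← h2, ← map_smul, mkQ_eq_zero_iff]
      exact mem_QA.2 ⟨a, ha⟩
    exact LinearMap.congr_fun h1 e
  have hmemN : ((algebraMap A S (b : A), (0 : S →ₗ[A] FractionRing A)) :
      S × (S →ₗ[A] FractionRing A)) ∈ NSub w := by
    rw [mem_NSub]
    intro s
    obtain ⟨e, rfl⟩ := hπ s
    change (QA A).mkQ 0 = w (algebraMap A S (b : A) * π e)
    rw [map_zero, ← Algebra.smul_def, map_smul, hbw]
  refine ⟨⟨⟨_, hmemN⟩, 0, fun h => ?_⟩⟩
  have h1 : algebraMap A S (b : A) = 0 := congrArg (fun x => x.1.1) h
  rw [map_eq_zero_iff _ hinj] at h1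
  exact nonZeroDivisors.ne_zero b.2 h1

omit [IsDomain A] in
/-- if the socle of `S/(ys)S` vanishes then `S` is free over `A`. -/
theorem free_of_socle_eq_zero {ys : List A} {z : A}
    (hmax : Ideal.ofList (ys ++ [z]) = maximalIdeal A)
    (hS : IsWeaklyRegular S ys)
    (hsoc : Subsingleton (Submodule.torsionBySet S
      (S ⧸ Ideal.ofList (ys.map (algebraMap A S))) (maximalIdeal S : Set S))) :
    Module.Free A S := by
  set J : Ideal S := Ideal.ofList (ys.map (algebraMap A S)) with hJ
  apply free_of_isWeaklyRegular S (ys ++ [z]) hmax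
  rw [isWeaklyRegular_append_iff, isWeaklyRegular_singleton_iff]
  refine ⟨hS, ?_⟩
  rw [isSMulRegular_quotient_iff_mem_of_smul_mem]
  intro x hx
  rw [mem_smul_top_iff] at hx ⊢
  rw [Algebra.smul_def] at hx
  by_contra hxJ
  obtain ⟨r, hr1, hr2⟩ := exists_socle_multiple hmax J hJ x hxJ hx
  let t : Submodule.torsionBySet S (S ⧸ J) (maximalIdeal S : Set S) :=
    ⟨Ideal.Quotient.mk J (r * x), (mem_socle_iff J (r * x)).2 hr2⟩
  have ht : t = 0 := Subsingleton.elim _ _
  apply hr1
  rw [← Ideal.Quotient.eq_zero_iff_mem]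
  exact congrArg Subtype.val ht

end Main

end Vale.Agent.P190
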