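import Mathlib

/-!
# P190: splitting lemmas
-/

namespace Vale.Agent.P190

open IsLocalRing TensorProduct

universe u v w

/-- Over a local ring, a map from a finite module to a finite free module is split injective as
soon as it is injective modulo the maximal ideal. -/
theorem split_of_mem {A : Type u} [CommRing A] [IsLocalRing A] {M : Type u} {N : Type u}
    [AddCommGroup M] [Module A M] [AddCommGroup N] [Module A N] [Module.Finite A M]
    [Module.Finite A N] [Module.Free A N] (l : M →ₗ[A] N)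
    (h : ∀ x : M, l x ∈ (maximalIdeal A • (⊤ : Submodule A N)) →
      x ∈ (maximalIdeal A • (⊤ : Submodule A M))) :
    ∃ l' : N →ₗ[A] M, l' ∘ₗ l = LinearMap.id := by
  rw [IsLocalRing.split_injective_iff_lTensor_residueField_injective]
  rw [injective_iff_map_eq_zero]
  intro x hx
  obtain ⟨y, rfl⟩ : ∃ y : M, x = (1 : ResidueField A) ⊗ₜ[A] y := by
    obtain ⟨y, hy⟩ := TensorProduct.mk_surjective A M (ResidueField A)
      Ideal.Quotient.mk_surjective x
    exact ⟨y, hy.symm⟩
  have e1 : ∀ (P : Type u) [AddCommGroup P] [Module A P] (y : P),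
      (1 : ResidueField A) ⊗ₜ[A] y = 0 ↔ y ∈ (maximalIdeal A • (⊤ : Submodule A P)) := by
    intro P _ _ y
    have h1 := quotTensorEquivQuotSMul_mk_one_tmul (M := P) (maximalIdeal A) y
    rw [← Submodule.Quotient.mk_eq_zero, ← h1]
    exact (LinearEquiv.map_eq_zero_iff _).symm
  rw [LinearMap.lTensor_tmul, e1] at hx
  rw [e1]
  exact h y hx

theorem exists_section {A : Type u} {M N P : Type*} [CommRing A] [AddCommGroup M] [Module A M]
    [AddCommGroup N] [Module A N] [AddCommGroup P] [Module A P] (f : M →ₗ[A] N) (g : N →ₗ[A] P)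
    (h : Function.Exact f g) (hf : Function.Injective f) (hg : Function.Surjective g)
    (hs : ∃ l : N →ₗ[A] M, l ∘ₗ f = LinearMap.id) : ∃ l : P →ₗ[A] N, g ∘ₗ l = LinearMap.id := by
  have := Function.Exact.split_tfae h hf hg
  exact (this.out 0 1).2 hs

section Data

variable {A : Type u} [CommRing A] {F : Type v} [AddCommGroup F] [Module A F]

/-- `i g = (g, - β g)` -/
def iMap (F₁ : Submodule A F) (β : F₁ →ₗ[A] Module.Dual A F) :
    F₁ →ₗ[A] F × Module.Dual A F :=
  F₁.subtype.prod (-β)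

/-- `p (e, f) g = β g e + f g` -/
def pMap (F₁ : Submodule A F) (β : F₁ →ₗ[A] Module.Dual A F) :
    F × Module.Dual A F →ₗ[A] Module.Dual A F₁ :=
  LinearMap.coprod β.flip F₁.subtype.dualMap

theorem iMap_apply (F₁ : Submodule A F) (β : F₁ →ₗ[A] Module.Dual A F) (g : F₁) :
    iMap F₁ β g = ((g : F), -β g) := rfl

theorem pMap_apply (F₁ : Submodule A F) (β : F₁ →ₗ[A] Module.Dual A F)
    (x : F × Module.Dual A F) (g : F₁) : pMap F₁ β x g = β g x.1 + x.2 g := by
  rfl

theorem pMap_iMap (F₁ : Submodule A F) (β : F₁ →ₗ[A] Module.Dual A F)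
    (hβ : ∀ g g' : F₁, β g g' = β g' g) (g : F₁) : pMap F₁ β (iMap F₁ β g) = 0 := by
  ext g'
  rw [pMap_apply, iMap_apply]
  simp only [LinearMap.neg_apply, LinearMap.zero_apply]
  rw [hβ g' g, add_neg_cancel]

theorem pMap_surjective [Module.IsReflexive A F] (F₁ : Submodule A F)
    (β : F₁ →ₗ[A] Module.Dual A F) (ρ : F × Module.Dual A F →ₗ[A] F₁)
    (hρ : ρ ∘ₗ iMap F₁ β = LinearMap.id) : Function.Surjective (pMap F₁ β) := by
  intro lam
  let μ : F × Module.Dual A F →ₗ[A] A := lam ∘ₗ ρ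
  let a' : Module.Dual A F := μ ∘ₗ LinearMap.inl A F (Module.Dual A F)
  let m' : Module.Dual A (Module.Dual A F) := μ ∘ₗ LinearMap.inr A F (Module.Dual A F)
  let e'' : F := (Module.evalEquiv A F).symm m'
  refine ⟨(-e'', a'), ?_⟩
  ext g
  rw [pMap_apply]
  have h1 : lam g = μ (iMap F₁ β g) := by
    have h2 : ρ (iMap F₁ β g) = g := LinearMap.congr_fun hρ g
    change lam g = lam (ρ (iMap F₁ β g))
    rw [h2]
  have h3 : μ (iMap F₁ β g) = a' g + m' (-β g) := by
    rw [iMap_apply]
    have h4 : (((g : F), -β g) : F × Module.Dual A F)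
        = LinearMap.inl A F (Module.Dual A F) (g : F)
          + LinearMap.inr A F (Module.Dual A F) (-β g) := by
      simp
    rw [h4, map_add]
    rfl
  have h5 : m' (-β g) = -(β g e'') := by
    rw [map_neg, ← Module.apply_evalEquiv_symm_apply A F (β g) m']
  rw [h1, h3, h5]
  change β g (-e'') + a' g = _
  rw [map_neg]
  ring

theorem projective_of_data [Module.IsReflexive A F] [Module.Projective A (F × Module.Dual A F)]
    (F₁ : Submodule A F) [Module.Projective A (Module.Dual A F₁)]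
    (β : F₁ →ₗ[A] Module.Dual A F) (hβ : ∀ g g' : F₁, β g g' = β g' g)
    (ρ : F × Module.Dual A F →ₗ[A] F₁) (hρ : ρ ∘ₗ iMap F₁ β = LinearMap.id)
    {N : Type w} [AddCommGroup N] [Module A N] (Θ : LinearMap.ker (pMap F₁ β) →ₗ[A] N)
    (hΘ : Function.Surjective Θ)
    (hker : ∀ x : LinearMap.ker (pMap F₁ β), Θ x = 0 ↔ ∃ g : F₁, iMap F₁ β g = x) :
    Module.Projective A N := by
  -- the kernel of `p` is projective
  have hp := pMap_surjective F₁ β ρ hρ
  obtain ⟨s, hs⟩ := Module.projective_lifting_property (pMap F₁ β) LinearMap.id hp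
  have hs' : ∀ y, pMap F₁ β (s y) = y := fun y => LinearMap.congr_fun hs y
  have hK : Module.Projective A (LinearMap.ker (pMap F₁ β)) := by
    let q : F × Module.Dual A F →ₗ[A] LinearMap.ker (pMap F₁ β) :=
      LinearMap.codRestrict (LinearMap.ker (pMap F₁ β)) (LinearMap.id - s ∘ₗ pMap F₁ β) (by
        intro x
        rw [LinearMap.mem_ker]
        simp [hs'])
    refine Module.Projective.of_split (LinearMap.ker (pMap F₁ β)).subtype q ?_
    ext x
    · simp [q, LinearMap.mem_ker.1 x.2]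
    · simp [q, LinearMap.mem_ker.1 x.2]
  -- the map `F₁ → ker p`
  let j : F₁ →ₗ[A] LinearMap.ker (pMap F₁ β) :=
    LinearMap.codRestrict (LinearMap.ker (pMap F₁ β)) (iMap F₁ β) (fun g => by
      rw [LinearMap.mem_ker]
      exact pMap_iMap F₁ β hβ g)
  have hj : ∀ g, ((j g : LinearMap.ker (pMap F₁ β)) : F × Module.Dual A F) = iMap F₁ β g :=
    fun g => rfl
  have hjinj : Function.Injective j := by
    intro g g' h
    have h1 : iMap F₁ β g = iMap F₁ β g' := by rw [← hj, ← hj, h]
    have h2 : ρ (iMap F₁ β g) = ρ (iMap F₁ β g') := by rw [h1]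
    have h3 : ∀ g, ρ (iMap F₁ β g) = g := fun g => LinearMap.congr_fun hρ g
    rwa [h3, h3] at h2
  have hexact : Function.Exact j Θ := by
    intro x
    rw [hker]
    constructor
    · rintro ⟨g, hg⟩
      exact ⟨g, Subtype.ext hg⟩
    · rintro ⟨g, rfl⟩
      exact ⟨g, rfl⟩
  have hsplit : ∃ l : LinearMap.ker (pMap F₁ β) →ₗ[A] F₁, l ∘ₗ j = LinearMap.id := by
    refine ⟨ρ ∘ₗ (LinearMap.ker (pMap F₁ β)).subtype, ?_⟩
    rw [LinearMap.comp_assoc]
    exact hρ
  obtain ⟨t, ht⟩ := exists_section (A := A) (M := F₁) (N := LinearMap.ker (pMap F₁ β)) (P := N)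
    j Θ hexact hjinj hΘ hsplit
  exact Module.Projective.of_split t Θ ht

end Data

end Vale.Agent.P190
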